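import Vale.Agent.P300.H933.Emb

/-!
# P300 / PROJ / EMB : section systems from dense frames, from maps to `ℙ¹`, and products (helper933)

* `SecSys.ofDense` : helper813's form (note 15191): functions `sig h` on a dense open `X0`, local
  multipliers `m x`, holomorphic extensions `F x h`.
* `exists_embedding_dense` : the embedding theorem in this form.
* `SecSys.ofP1` : the two sections attached to a holomorphic map to `ℙ¹ = OnePoint ℂ`.
* `SecSys.prod`, `SecSys.pi` : products.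
-/

set_option autoImplicit false

open scoped Manifold ContDiff Topology
open Set Filter

namespace Vale.Agent.P300.Emb

variable {E : Type*} [NormedAddCommGroup E] [NormedSpace ℂ E]
  {X : Type*} [TopologicalSpace X] [ChartedSpace E X] {H H' : Type*}

/-! ### dense frames -/

/-- holomorphic extensions of `m x * sig h`, `sig h` given on a dense open set -/
structure DenseSec (E : Type*) [NormedAddCommGroup E] [NormedSpace ℂ E] (X : Type*)
    [TopologicalSpace X] [ChartedSpace E X] (H : Type*) where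
  /-- the dense open set -/
  X0 : Set X
  isOpen_X0 : IsOpen X0
  dense_X0 : Dense X0
  /-- the sections on `X0` -/
  sig : H → X → ℂ
  /-- the neighbourhoods -/
  W : X → Set X
  isOpen : ∀ x, IsOpen (W x)
  mem : ∀ x, x ∈ W x
  /-- the multipliers -/
  m : X → X → ℂ
  m_ne : ∀ x, ∀ y ∈ W x, y ∈ X0 → m x y ≠ 0
  /-- the extensions -/
  F : X → H → X → ℂ
  hol : ∀ x h, ContMDiffOn 𝓘(ℂ, E) 𝓘(ℂ) ω (F x h) (W x)
  eq : ∀ x h, ∀ y ∈ W x, y ∈ X0 → F x h y = m x y * sig h y

namespace DenseSec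

variable (D : DenseSec E X H)

theorem cross (x x' : X) (h h' : H) {y : X} (hy : y ∈ D.W x) (hy' : y ∈ D.W x') :
    D.F x h y * D.F x' h' y = D.F x' h y * D.F x h' y := by
  have ho : IsOpen (D.W x ∩ D.W x') := (D.isOpen x).inter (D.isOpen x')
  have h1 : ∀ h, ContinuousOn (D.F x h) (D.W x ∩ D.W x') := fun h =>
    (D.hol x h).continuousOn.mono inter_subset_left
  have h2 : ∀ h, ContinuousOn (D.F x' h) (D.W x ∩ D.W x') := fun h =>
    (D.hol x' h).continuousOn.mono inter_subset_right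
  have h3 : EqOn (fun y => D.F x h y * D.F x' h' y) (fun y => D.F x' h y * D.F x h' y)
      (D.W x ∩ D.W x' ∩ D.X0) := by
    rintro z ⟨⟨hz, hz'⟩, hz0⟩
    simp only
    rw [D.eq x h z hz hz0, D.eq x' h' z hz' hz0, D.eq x' h z hz' hz0, D.eq x h' z hz hz0]
    ring
  have h4 : D.W x ∩ D.W x' ⊆ closure (D.W x ∩ D.W x' ∩ D.X0) :=
    D.dense_X0.open_subset_closure_inter ho
  exact h3.of_subset_closure ((h1 h).mul (h2 h')) ((h2 h).mul (h1 h'))
    inter_subset_left h4 ⟨hy, hy'⟩

/-- the section system of dense frames without base points -/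
noncomputable def toSecSys (h₀ : X → H) (hb : ∀ x, D.F x (h₀ x) x ≠ 0) : SecSys E X H where
  U x := D.W x ∩ (D.F x (h₀ x)) ⁻¹' {0}ᶜ
  isOpen x := (D.hol x (h₀ x)).continuousOn.isOpen_inter_preimage (D.isOpen x)
    isClosed_singleton.isOpen_compl
  mem x := ⟨D.mem x, hb x⟩
  τ := D.F
  hol x s := (D.hol x s).mono inter_subset_left
  comp x x' y hy hy' := by
    have h0 : D.F x (h₀ x) y ≠ 0 := hy.2
    have h0' : D.F x' (h₀ x') y ≠ 0 := hy'.2
    have h1 := D.cross x x' (h₀ x') (h₀ x) hy.1 hy'.1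
    have h2 : D.F x' (h₀ x) y ≠ 0 := by
      intro h
      rw [h, mul_zero] at h1
      exact mul_ne_zero h0' h0 h1.symm
    refine ⟨D.F x (h₀ x) y / D.F x' (h₀ x) y, div_ne_zero h0 h2, fun s => ?_⟩
    have h3 := D.cross x x' s (h₀ x) hy.1 hy'.1
    rw [div_mul_eq_mul_div, eq_div_iff h2, h3]
    ring

@[simp] theorem toSecSys_τ (h₀ : X → H) (hb : ∀ x, D.F x (h₀ x) x ≠ 0) :
    (D.toSecSys h₀ hb).τ = D.F := rfl

end DenseSec

/-! ### products -/

namespace SecSys

/-- the tensor product of two section systems -/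
def prod (S : SecSys E X H) (S' : SecSys E X H') : SecSys E X (H × H') where
  U x := S.U x ∩ S'.U x
  isOpen x := (S.isOpen x).inter (S'.isOpen x)
  mem x := ⟨S.mem x, S'.mem x⟩
  τ x s y := S.τ x s.1 y * S'.τ x s.2 y
  hol x s := ((S.hol x s.1).mono inter_subset_left).mul ((S'.hol x s.2).mono inter_subset_right)
  comp x x' y hy hy' := by
    obtain ⟨c, hc, h1⟩ := S.comp x x' y hy.1 hy'.1
    obtain ⟨c', hc', h2⟩ := S'.comp x x' y hy.2 hy'.2
    refine ⟨c * c', mul_ne_zero hc hc', fun s => ?_⟩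
    rw [h1 s.1, h2 s.2]
    ring

/-- the tensor product of finitely many section systems -/
def pi {ι : Type*} [Fintype ι] {A : ι → Type*} (S : ∀ i, SecSys E X (A i)) :
    SecSys E X (∀ i, A i) where
  U x := ⋂ i, (S i).U x
  isOpen x := isOpen_iInter_of_finite fun i => (S i).isOpen x
  mem x := mem_iInter.2 fun i => (S i).mem x
  τ x s y := ∏ i, (S i).τ x (s i) y
  hol x s := contMDiffOn_finsetProd fun i _ => ((S i).hol x (s i)).mono (iInter_subset _ i)
  comp x x' y hy hy' := by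
    have h := fun i => (S i).comp x x' y (mem_iInter.1 hy i) (mem_iInter.1 hy' i)
    choose c hc h1 using h
    refine ⟨∏ i, c i, Finset.prod_ne_zero_iff.2 fun i _ => hc i, fun s => ?_⟩
    rw [← Finset.prod_mul_distrib]
    exact Finset.prod_congr rfl fun i _ => h1 i (s i)

end SecSys

/-! ### maps to `ℙ¹` -/

/-- the affine coordinate `z` on `OnePoint ℂ` -/
noncomputable def val (c : OnePoint ℂ) : ℂ := c.elim (0 : ℂ) (fun z => z)

/-- the affine coordinate `1/z` on `OnePoint ℂ` -/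
noncomputable def ival (c : OnePoint ℂ) : ℂ := c.elim (0 : ℂ) (fun z => z⁻¹)

@[simp] theorem val_coe (z : ℂ) : val (z : OnePoint ℂ) = z := rfl
@[simp] theorem ival_coe (z : ℂ) : ival (z : OnePoint ℂ) = z⁻¹ := rfl
@[simp] theorem val_infty : val OnePoint.infty = 0 := rfl
@[simp] theorem ival_infty : ival OnePoint.infty = 0 := rfl

/-- a holomorphic map to `ℙ¹ = OnePoint ℂ` -/
structure IsHolP1 (E : Type*) [NormedAddCommGroup E] [NormedSpace ℂ E] {X : Type*}
    [TopologicalSpace X] [ChartedSpace E X] (c : X → OnePoint ℂ) : Prop where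
  cont : Continuous c
  fin : ContMDiffOn 𝓘(ℂ, E) 𝓘(ℂ) ω (fun y => val (c y)) {y | c y ≠ OnePoint.infty}
  inf : ContMDiffOn 𝓘(ℂ, E) 𝓘(ℂ) ω (fun y => ival (c y)) {y | c y ≠ ((0 : ℂ) : OnePoint ℂ)}

open Classical in
/-- numerator of `c` in the trivialisation at `c x` -/
noncomputable def num (a c : OnePoint ℂ) : ℂ := if a = OnePoint.infty then 1 else val c

open Classical in
/-- denominator of `c` in the trivialisation at `c x` -/
noncomputable def den (a c : OnePoint ℂ) : ℂ := if a = OnePoint.infty then ival c else 1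

theorem num_den_self {a c : OnePoint ℂ} (h : den a a * num c c = num a a * den c c) : a = c := by
  induction a using OnePoint.rec with
  | infty =>
    induction c using OnePoint.rec with
    | infty => rfl
    | coe z => simp [num, den] at h
  | coe w =>
    induction c using OnePoint.rec with
    | infty => simp [num, den] at h
    | coe z => simp [num, den] at h; rw [h]

theorem den_or_num (a : OnePoint ℂ) : num a a ≠ 0 ∨ den a a ≠ 0 := by
  by_cases h : a = OnePoint.infty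
  · left; simp [num, h]
  · right; simp [den, h]

/-- domain of the trivialisation at `a` -/
noncomputable def dom (a : OnePoint ℂ) : Set (OnePoint ℂ) :=
  {c | (a = OnePoint.infty → c ≠ ((0 : ℂ) : OnePoint ℂ)) ∧ (a ≠ OnePoint.infty → c ≠ OnePoint.infty)}

theorem isOpen_dom (a : OnePoint ℂ) : IsOpen (dom a) := by
  by_cases h : a = OnePoint.infty
  · have : dom a = {((0 : ℂ) : OnePoint ℂ)}ᶜ := by ext c; simp [dom, h]
    rw [this]
    exact isClosed_singleton.isOpen_compl
  · have : dom a = {OnePoint.infty}ᶜ := by ext c; simp [dom, h]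
    rw [this]
    exact isClosed_singleton.isOpen_compl

theorem self_mem_dom (a : OnePoint ℂ) : a ∈ dom a := by
  refine ⟨fun h => ?_, fun h => h⟩
  rw [h]
  exact (OnePoint.coe_ne_infty _).symm

theorem dom_comp (a b c : OnePoint ℂ) (ha : c ∈ dom a) (hb : c ∈ dom b) :
    ∃ t : ℂ, t ≠ 0 ∧ num a c = t * num b c ∧ den a c = t * den b c := by
  by_cases h : a = OnePoint.infty <;> by_cases h' : b = OnePoint.infty
  · exact ⟨1, one_ne_zero, by simp [num, h, h'], by simp [den, h, h']⟩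
  · have hc : c ≠ OnePoint.infty := hb.2 h'
    have hc0 : c ≠ ((0 : ℂ) : OnePoint ℂ) := ha.1 h
    induction c using OnePoint.rec with
    | infty => exact absurd rfl hc
    | coe z =>
      have hz : z ≠ 0 := fun e => hc0 (by rw [e])
      exact ⟨z⁻¹, inv_ne_zero hz, by simp [num, h, h', hz], by simp [den, h, h']⟩
  · have hc : c ≠ OnePoint.infty := ha.2 h
    have hc0 : c ≠ ((0 : ℂ) : OnePoint ℂ) := hb.1 h'
    induction c using OnePoint.rec with
    | infty => exact absurd rfl hc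
    | coe z =>
      have hz : z ≠ 0 := fun e => hc0 (by rw [e])
      exact ⟨z, hz, by simp [num, h, h'], by simp [den, h, h', hz]⟩
  · exact ⟨1, one_ne_zero, by simp [num, h, h'], by simp [den, h, h']⟩

theorem IsHolP1.num_hol {c : X → OnePoint ℂ} (hc : IsHolP1 E c) (a : OnePoint ℂ) :
    ContMDiffOn 𝓘(ℂ, E) 𝓘(ℂ) ω (fun y => num a (c y)) (c ⁻¹' dom a) := by
  by_cases h : a = OnePoint.infty
  · simp only [num, h, if_true]
    exact contMDiffOn_const
  · simp only [num, h, if_false]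
    exact hc.fin.mono fun y hy => hy.2 h

theorem IsHolP1.den_hol {c : X → OnePoint ℂ} (hc : IsHolP1 E c) (a : OnePoint ℂ) :
    ContMDiffOn 𝓘(ℂ, E) 𝓘(ℂ) ω (fun y => den a (c y)) (c ⁻¹' dom a) := by
  by_cases h : a = OnePoint.infty
  · have h1 : ∀ c, den a c = ival c := fun c => by simp [den, h]
    simp only [h1]
    exact hc.inf.mono fun y hy => hy.1 h
  · simp only [den, h, if_false]
    exact contMDiffOn_const

/-- the section system of a holomorphic map to `ℙ¹`: the linear forms -/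
noncomputable def SecSys.ofP1 {c : X → OnePoint ℂ} (hc : IsHolP1 E c) : SecSys E X (ℂ × ℂ) where
  U x := c ⁻¹' dom (c x)
  isOpen x := (isOpen_dom _).preimage hc.cont
  mem x := self_mem_dom _
  τ x s y := s.1 * num (c x) (c y) + s.2 * den (c x) (c y)
  hol x s := (contMDiffOn_const.mul (hc.num_hol _)).add (contMDiffOn_const.mul (hc.den_hol _))
  comp x x' y hy hy' := by
    obtain ⟨t, ht, h1, h2⟩ := dom_comp _ _ _ hy hy'
    refine ⟨t, ht, fun s => ?_⟩
    rw [h1, h2]
    ring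

theorem SecSys.ofP1_base {c : X → OnePoint ℂ} (hc : IsHolP1 E c) (x : X) :
    ∃ s, (SecSys.ofP1 hc).τ x s x ≠ 0 := by
  rcases den_or_num (c x) with h | h
  · exact ⟨(1, 0), by simpa [SecSys.ofP1] using h⟩
  · exact ⟨(0, 1), by simpa [SecSys.ofP1] using h⟩

theorem SecSys.ofP1_sep {c : X → OnePoint ℂ} (hc : IsHolP1 E c) {x y : X} (h : c x ≠ c y) :
    ∃ s, (SecSys.ofP1 hc).τ x s x = 0 ∧ (SecSys.ofP1 hc).τ y s y ≠ 0 := by
  refine ⟨(den (c x) (c x), -num (c x) (c x)), ?_, ?_⟩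
  · simp only [SecSys.ofP1]
    ring
  · simp only [SecSys.ofP1]
    intro h1
    refine h (num_den_self ?_)
    linear_combination h1

/-! ### the embedding theorems -/

/-- **embedding theorem, helper813's form** -/
theorem exists_embedding_dense [FiniteDimensional ℂ E] [IsManifold 𝓘(ℂ, E) ω X] [CompactSpace X]
    [Nonempty X] (D : DenseSec E X H) (hb : ∀ x, ∃ h, D.F x h x ≠ 0)
    (hs : ∀ x y, x ≠ y → ∃ h, D.F x h x = 0 ∧ D.F y h y ≠ 0)
    (ht : ∀ (x : X) (v : TangentSpace 𝓘(ℂ, E) x), v ≠ 0 →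
      ∃ h, D.F x h x = 0 ∧ (mfderiv 𝓘(ℂ, E) 𝓘(ℂ) (D.F x h) x v : ℂ) ≠ 0) :
    ∃ (N : ℕ) (F : X → Projectivization ℂ (Fin (N + 1) → ℂ)),
      Function.Injective F ∧ IsHolImmersion E F := by
  choose h₀ hh₀ using hb
  obtain ⟨T, hT⟩ := (D.toSecSys h₀ hh₀).exists_good (fun x => ⟨h₀ x, hh₀ x⟩) hs ht
  obtain ⟨N, σ, F, h1, h2, -⟩ := hT.exists_map
  exact ⟨N, F, h1, h2⟩

/-- **embedding theorem, relative form** : the sections separate the points of the fibres of
`(c i) : X → (ℙ¹)^ι` and the tangent vectors -/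
theorem SecSys.exists_good_rel [FiniteDimensional ℂ E] [IsManifold 𝓘(ℂ, E) ω X] [CompactSpace X]
    {ι : Type*} [Fintype ι] (S : SecSys E X H) (hb : ∀ x, ∃ h, S.τ x h x ≠ 0)
    {c : ι → X → OnePoint ℂ} (hc : ∀ i, IsHolP1 E (c i))
    (hs : ∀ x y, x ≠ y → (∀ i, c i x = c i y) → ∃ h, S.τ x h x = 0 ∧ S.τ y h y ≠ 0)
    (ht : ∀ (x : X) (v : TangentSpace 𝓘(ℂ, E) x), v ≠ 0 →
      ∃ h, S.τ x h x = 0 ∧ (mfderiv 𝓘(ℂ, E) 𝓘(ℂ) (S.τ x h) x v : ℂ) ≠ 0) :
    ∃ T, (S.prod (SecSys.pi fun i => SecSys.ofP1 (hc i))).Good T := by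
  classical
  set B := SecSys.pi fun i => SecSys.ofP1 (hc i) with hB
  -- the base has no base points
  have hBb : ∀ x, ∃ s, B.τ x s x ≠ 0 := by
    intro x
    choose s hs using fun i => SecSys.ofP1_base (hc i) x
    exact ⟨s, Finset.prod_ne_zero_iff.2 fun i _ => hs i⟩
  have hBs : ∀ x y, (¬ ∀ i, c i x = c i y) → ∃ s, B.τ x s x = 0 ∧ B.τ y s y ≠ 0 := by
    intro x y hxy
    push Not at hxy
    obtain ⟨i, hi⟩ := hxy
    obtain ⟨s, hs1, hs2⟩ := SecSys.ofP1_sep (hc i) hi
    choose t ht using fun j => SecSys.ofP1_base (hc j) y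
    refine ⟨Function.update t i s, ?_, ?_⟩
    · refine Finset.prod_eq_zero (Finset.mem_univ i) ?_
      rw [Function.update_self]
      exact hs1
    · refine Finset.prod_ne_zero_iff.2 fun j _ => ?_
      by_cases hj : j = i
      · subst hj
        rw [Function.update_self]
        exact hs2
      · rw [Function.update_of_ne hj]
        exact ht j
  refine SecSys.exists_good _ (fun x => ?_) (fun x y hxy => ?_) (fun x v hv => ?_)
  · obtain ⟨s, h1⟩ := hb x
    obtain ⟨t, h2⟩ := hBb x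
    exact ⟨(s, t), mul_ne_zero h1 h2⟩
  · by_cases hc' : ∀ i, c i x = c i y
    · obtain ⟨s, h1, h2⟩ := hs x y hxy hc'
      obtain ⟨t, h3⟩ := hBb y
      refine ⟨(s, t), ?_, mul_ne_zero h2 h3⟩
      change S.τ x s x * B.τ x t x = 0
      rw [h1, zero_mul]
    · obtain ⟨t, h1, h2⟩ := hBs x y hc'
      obtain ⟨s, h3⟩ := hb y
      refine ⟨(s, t), ?_, mul_ne_zero h3 h2⟩
      change S.τ x s x * B.τ x t x = 0
      rw [h1, mul_zero]
  · obtain ⟨s, h1, h2⟩ := ht x v hv
    obtain ⟨t, h3⟩ := hBb x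
    refine ⟨(s, t), ?_, ?_⟩
    · change S.τ x s x * B.τ x t x = 0
      rw [h1, zero_mul]
    · have hd1 : MDifferentiableAt 𝓘(ℂ, E) 𝓘(ℂ) (S.τ x s) x :=
        ((S.hol x s).contMDiffAt ((S.isOpen x).mem_nhds (S.mem x))).mdifferentiableAt (by simp)
      have hd2 : MDifferentiableAt 𝓘(ℂ, E) 𝓘(ℂ) (B.τ x t) x :=
        ((B.hol x t).contMDiffAt ((B.isOpen x).mem_nhds (B.mem x))).mdifferentiableAt (by simp)
      have h4 := (hd1.hasMFDerivAt.mul hd2.hasMFDerivAt).mfderiv
      have h5 : ∀ a b : ℂ, a = (mfderiv 𝓘(ℂ, E) 𝓘(ℂ) (B.τ x t) x v : ℂ) →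
          b = (mfderiv 𝓘(ℂ, E) 𝓘(ℂ) (S.τ x s) x v : ℂ) →
          (mfderiv 𝓘(ℂ, E) 𝓘(ℂ) (S.τ x s * B.τ x t) x v : ℂ) =
          S.τ x s x * a + B.τ x t x * b := by
        rintro _ _ rfl rfl
        rw [h4]
        rfl
      have h6 : ∀ a b : ℂ, b ≠ 0 → S.τ x s x * a + B.τ x t x * b ≠ 0 := by
        intro a b hb'
        rw [h1, zero_mul, zero_add]
        exact mul_ne_zero h3 hb'
      intro h7
      exact h6 _ _ h2 ((h5 _ _ rfl rfl).symm.trans h7)

end Vale.Agent.P300.Emb
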