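import Vale.Agent.P300.H933.AffP

/-!
# P300 [CHOW] AffPart: growth, density of the regular points, assembly (helper933)
-/

set_option autoImplicit false

open Complex Filter Set
open scoped Topology ContDiff

namespace Vale.Agent.P300.H933A

open Vale.Agent.P300.H86

variable {n : ℕ} {C : Set (Fin n → ℂ)} (A : ProjAtlas C) (M : Fin 4 → Fin n → ℂ)

/-- the projection -/
noncomputable def prj (M : Fin 4 → Fin n → ℂ) : (Fin n → ℂ) →L[ℂ] W :=
  ContinuousLinearMap.pi ![lf M 1, lf M 2]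

theorem prj_apply (v : Fin n → ℂ) : prj M v = ![lf M 1 v, lf M 2 v] := by
  funext i
  fin_cases i <;> rfl

include A in
theorem growth (hM : ∀ v ∈ C, lf M 0 v = 0 → lf M 1 v = 0 → lf M 2 v = 0 → False) :
    ∃ c : ℝ, ∀ v ∈ Zz C M, ‖v‖ ≤ c * (1 + ‖prj M v‖) := by
  -- the compact set
  set K : Set (Fin n → ℂ) := (C ∪ {0}) ∩ Metric.sphere 0 1 with hK
  have hKc : IsCompact K := (isCompact_sphere 0 1).inter_left A.closed
  set g : (Fin n → ℂ) → ℝ := fun v => ‖lf M 0 v‖ + ‖prj M v‖ with hg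
  have hgc : Continuous g := (lf M 0).continuous.norm.add (prj M).continuous.norm
  have hpos : ∀ v ∈ K, 0 < g v := by
    rintro v ⟨h1 | h1, h2⟩
    · have h3 : g v ≠ 0 := by
        intro h0
        have h4 : ‖lf M 0 v‖ = 0 ∧ ‖prj M v‖ = 0 :=
          (add_eq_zero_iff_of_nonneg (norm_nonneg _) (norm_nonneg _)).1 h0
        have h5 := norm_eq_zero.1 h4.2
        rw [prj_apply] at h5
        exact hM v h1 (norm_eq_zero.1 h4.1) (congrFun h5 0) (congrFun h5 1)
      exact lt_of_le_of_ne (add_nonneg (norm_nonneg _) (norm_nonneg _)) h3.symm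
    · rw [mem_singleton_iff] at h1
      rw [h1] at h2
      simp at h2
  rcases K.eq_empty_or_nonempty with h0 | h0
  · refine ⟨0, fun v hv => ?_⟩
    exfalso
    have hv0 : v ≠ 0 := fun h => A.zero (h ▸ hv.1)
    have h1 : ((‖v‖ : ℂ)⁻¹ • v) ∈ K := by
      refine ⟨Or.inl (A.smul v hv.1 _ (inv_ne_zero (by simpa using hv0))), ?_⟩
      rw [mem_sphere_zero_iff_norm, norm_smul, norm_inv, Complex.norm_real, norm_norm,
        inv_mul_cancel₀ (norm_ne_zero_iff.2 hv0)]
    rw [h0] at h1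
    exact h1
  · obtain ⟨v₀, hv₀, hmin⟩ := hKc.exists_isMinOn h0 hgc.continuousOn
    refine ⟨(g v₀)⁻¹, fun v hv => ?_⟩
    have hv0 : v ≠ 0 := fun h => A.zero (h ▸ hv.1)
    have h1 : ((‖v‖ : ℂ)⁻¹ • v) ∈ K := by
      refine ⟨Or.inl (A.smul v hv.1 _ (inv_ne_zero (by simpa using hv0))), ?_⟩
      rw [mem_sphere_zero_iff_norm, norm_smul, norm_inv, Complex.norm_real, norm_norm,
        inv_mul_cancel₀ (norm_ne_zero_iff.2 hv0)]
    have h2 : g v₀ ≤ g ((‖v‖ : ℂ)⁻¹ • v) := hmin h1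
    have h3 : g ((‖v‖ : ℂ)⁻¹ • v) = ‖v‖⁻¹ * g v := by
      simp only [hg, map_smul, norm_smul, norm_inv, Complex.norm_real, norm_norm]
      ring
    rw [h3] at h2
    have h4 : g v = 1 + ‖prj M v‖ := by
      simp only [hg]
      rw [hv.2, norm_one]
    rw [← h4]
    have h5 : 0 < ‖v‖ := norm_pos_iff.2 hv0
    have h6 := hpos v₀ hv₀
    rw [inv_mul_eq_div, le_div_iff₀ h6]
    calc ‖v‖ * g v₀ ≤ ‖v‖ * (‖v‖⁻¹ * g v) := mul_le_mul_of_nonneg_left h2 h5.le
      _ = g v := by rw [← mul_assoc, mul_inv_cancel₀ h5.ne', one_mul]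

/-- the Jacobian criterion -/
theorem jac_ne (i : A.ι) {u : W} (hu : u ∈ Dd A M i) (h3 : Inj3 A M i u) :
    Jac (fun x => prj M (ff A M i x)) u ≠ 0 := by
  have hd : DifferentiableAt ℂ (A.F i) u := (A.diff i).differentiableAt ((A.openD i).mem_nhds hu.1)
  have hd0 : DifferentiableAt ℂ (fun u => lf M 0 (A.F i u)) u :=
    (lf M 0).differentiableAt.comp u hd
  have hinv : DifferentiableAt ℂ (fun u => (lf M 0 (A.F i u))⁻¹) u := hd0.inv hu.2
  have hff : DifferentiableAt ℂ (ff A M i) u := hinv.smul hd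
  have hcomp : fderiv ℂ (fun x => prj M (ff A M i x)) u = (prj M).comp (fderiv ℂ (ff A M i) u) :=
    ((prj M).hasFDerivAt.comp u hff.hasFDerivAt).fderiv
  -- derivative of `F = l₀(F) • f`
  have hF : A.F i =ᶠ[𝓝 u] fun u => lf M 0 (A.F i u) • ff A M i u := by
    filter_upwards [(open_Dd A M i).mem_nhds hu] with u' hu'
    rw [ff, smul_smul, mul_inv_cancel₀ hu'.2, one_smul]
  have hF' : ∀ w, fderiv ℂ (A.F i) u w = lf M 0 (A.F i u) • fderiv ℂ (ff A M i) u w +
      lf M 0 (fderiv ℂ (A.F i) u w) • ff A M i u := by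
    intro w
    have h1 : fderiv ℂ (A.F i) u = fderiv ℂ (fun u => lf M 0 (A.F i u) • ff A M i u) u :=
      hF.fderiv_eq
    have h2 : fderiv ℂ (fun u => lf M 0 (A.F i u)) u = (lf M 0).comp (fderiv ℂ (A.F i) u) :=
      ((lf M 0).hasFDerivAt.comp u hd.hasFDerivAt).fderiv
    conv_lhs => rw [h1]
    rw [fderiv_fun_smul hd0 hff, h2]
    rfl
  intro hdet
  have hker : ∃ w : W, w ≠ 0 ∧ fderiv ℂ (fun x => prj M (ff A M i x)) u w = 0 := by
    unfold Jac at hdet
    have h1 : ¬ Function.Injective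
        (fderiv ℂ (fun x => prj M (ff A M i x)) u : W →ₗ[ℂ] W) := by
      intro hinj
      have h2 : LinearMap.ker (fderiv ℂ (fun x => prj M (ff A M i x)) u : W →ₗ[ℂ] W) = ⊥ :=
        LinearMap.ker_eq_bot.2 hinj
      have h3 := (LinearMap.isUnit_iff_ker_eq_bot _).2 h2
      have h4 := (LinearMap.isUnit_iff_isUnit_det _).1 h3
      rw [hdet] at h4
      exact not_isUnit_zero h4
    rw [injective_iff_map_eq_zero] at h1
    push Not at h1
    obtain ⟨w, hw1, hw2⟩ := h1
    exact ⟨w, hw2, hw1⟩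
  obtain ⟨w, hw0, hw⟩ := hker
  rw [hcomp] at hw
  have hw' : prj M (fderiv ℂ (ff A M i) u w) = 0 := hw
  rw [prj_apply] at hw'
  have hw1 : lf M 1 (fderiv ℂ (ff A M i) u w) = 0 := congrFun hw' 0
  have hw2 : lf M 2 (fderiv ℂ (ff A M i) u w) = 0 := congrFun hw' 1
  -- the tangent vector
  set a := lf M 0 (A.F i u) with ha
  set b := lf M 0 (fderiv ℂ (A.F i) u w) with hb
  have hww : w = w 0 • (Pi.single 0 1 : W) + w 1 • (Pi.single 1 1 : W) := by
    funext k
    fin_cases k <;> simp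
  have htg : tg A i u ![-(b * a⁻¹), w 0, w 1] = a • fderiv ℂ (ff A M i) u w := by
    have h1 : fderiv ℂ (A.F i) u w = w 0 • fderiv ℂ (A.F i) u (Pi.single 0 1) +
        w 1 • fderiv ℂ (A.F i) u (Pi.single 1 1) := by
      conv_lhs => rw [hww]
      rw [map_add, map_smul, map_smul]
    have h2 := hF' w
    have h4 : ff A M i u = a⁻¹ • A.F i u := rfl
    rw [h4, smul_smul] at h2
    simp only [tg, Matrix.cons_val_zero, Matrix.cons_val_one, Matrix.cons_val_two,
      Matrix.head_cons, Matrix.tail_cons]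
    rw [add_assoc, ← h1, h2]
    simp only [neg_smul]
    abel
  have hl0 : lf M 0 (tg A i u ![-(b * a⁻¹), w 0, w 1]) = 0 := by
    have h1 : fderiv ℂ (A.F i) u w = w 0 • fderiv ℂ (A.F i) u (Pi.single 0 1) +
        w 1 • fderiv ℂ (A.F i) u (Pi.single 1 1) := by
      conv_lhs => rw [hww]
      rw [map_add, map_smul, map_smul]
    simp only [tg, Matrix.cons_val_zero, Matrix.cons_val_one, Matrix.cons_val_two,
      Matrix.head_cons, Matrix.tail_cons]
    rw [add_assoc, ← h1, map_add, map_smul, smul_eq_mul, ← ha, ← hb]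
    have h5 : a ≠ 0 := hu.2
    field_simp
    ring
  have h5 := h3 _ hl0 (by rw [htg, map_smul, hw1, smul_zero]) (by rw [htg, map_smul, hw2, smul_zero])
  refine hw0 ?_
  rw [hww]
  have h6 : w 0 = 0 := congrFun h5 1
  have h7 : w 1 = 0 := congrFun h5 2
  rw [h6, h7, zero_smul, zero_smul, add_zero]

/-- **[PROJ1] the affine part** -/
theorem affPart : AffPart := by
  intro n C A M hM
  refine ⟨{
    Z := Zz C M
    ι := A.ι
    cnt := A.cnt
    D := Dd A M
    f := ff A M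
    pr := prj M
    closed := closed_Zz A M
    openD := open_Dd A M
    diff := diff_ff A M
    inj := inj_ff A M
    mem := fun i u hu => mem_ff A M i hu
    cover := fun v hv => cover_ff A M hv
    openImg := openImg_ff A M
    growth := growth A M hM.nozero
    dense := ?_ }, rfl, prj_apply M, ?_⟩
  · intro i U hU hUD hne
    obtain ⟨u, hu, h1, h2⟩ := hM.dense i U hU (fun u hu => (hUD hu).1) hne
    exact ⟨u, hu, jac_ne A M i (hUD hu) h2⟩
  · intro i u hu h0
    exact ⟨i, u, ⟨hu, h0⟩, rfl, fun h => jac_ne A M i ⟨hu, h0⟩ h⟩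

end Vale.Agent.P300.H933A
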