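import Vale.Agent.P300.H933.EmbD
import Vale.Agent.P300.H86.Spec
import Vale.Agent.P300.H232.Stmt

/-!
# P300 / PROJ : from an injective holomorphic immersion of a compact surface to helper86's `ProjAtlas`
and helper232's `IsSmoothProjective` (helper933)
-/

set_option autoImplicit false

open scoped Manifold ContDiff Topology LinearAlgebra.Projectivization
open Set Filter

namespace Vale.Agent.P300.Emb

section chart

variable {E : Type*} [NormedAddCommGroup E] [NormedSpace ℂ E]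
  {X : Type*} [TopologicalSpace X] [ChartedSpace E X] [IsManifold 𝓘(ℂ, E) ω X]
  {V : Type*} [NormedAddCommGroup V] [NormedSpace ℂ V]

/-- chain rule in the chart at `x`, vector valued -/
theorem mfderiv_chartV {f : X → V} {x y : X} (hy : y ∈ (chartAt E x).source)
    (hf : MDifferentiableAt 𝓘(ℂ, E) 𝓘(ℂ, V) f y) (v : TangentSpace 𝓘(ℂ, E) y) :
    DifferentiableAt ℂ (fun z => f ((chartAt E x).symm z)) (chartAt E x y) ∧
    (mfderiv 𝓘(ℂ, E) 𝓘(ℂ, V) f y v : V) =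
      fderiv ℂ (fun z => f ((chartAt E x).symm z)) (chartAt E x y)
        (mfderiv 𝓘(ℂ, E) 𝓘(ℂ, E) (chartAt E x) y v : E) := by
  set e := chartAt E x with he
  have hm := mdifferentiable_chart (I := 𝓘(ℂ, E)) x
  have h1 : MDifferentiableAt 𝓘(ℂ, E) 𝓘(ℂ, E) e y := hm.mdifferentiableAt hy
  have h2 : MDifferentiableAt 𝓘(ℂ, E) 𝓘(ℂ, E) e.symm (e y) :=
    hm.mdifferentiableAt_symm (e.map_source hy)
  have hey : e.symm (e y) = y := e.left_inv hy
  have h3 : MDifferentiableAt 𝓘(ℂ, E) 𝓘(ℂ, V) (fun z => f (e.symm z)) (e y) := by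
    refine MDifferentiableAt.comp (e y) (g := f) ?_ h2
    rw [hey]
    exact hf
  refine ⟨h3.differentiableAt, ?_⟩
  have h4 : (fun z => f (e.symm z)) ∘ e =ᶠ[𝓝 y] f := by
    filter_upwards [e.open_source.mem_nhds hy] with y' hy'
    exact congrArg f (e.left_inv hy')
  have h5 : mfderiv 𝓘(ℂ, E) 𝓘(ℂ, V) f y =
      mfderiv 𝓘(ℂ, E) 𝓘(ℂ, V) ((fun z => f (e.symm z)) ∘ e) y :=
    (Filter.EventuallyEq.mfderiv_eq h4).symm
  have h6 : mfderiv 𝓘(ℂ, E) 𝓘(ℂ, V) ((fun z => f (e.symm z)) ∘ e) y =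
      (mfderiv 𝓘(ℂ, E) 𝓘(ℂ, V) (fun z => f (e.symm z)) (e y)).comp
        (mfderiv 𝓘(ℂ, E) 𝓘(ℂ, E) e y) := mfderiv_comp y h3 h1
  rw [h5, h6, mfderiv_eq_fderiv]
  rfl

end chart

/-- parallel vectors -/
theorem par_iff {n : Type*} {a v : n → ℂ} (ha : a ≠ 0) :
    (∃ c : ℂ, c • a = v) ↔ ∀ i j, v i * a j = v j * a i := by
  constructor
  · rintro ⟨c, rfl⟩ i j
    simp only [Pi.smul_apply, smul_eq_mul]
    ring
  · intro h
    obtain ⟨j, hj⟩ := Function.ne_iff.1 ha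
    simp only [Pi.zero_apply] at hj
    refine ⟨v j / a j, funext fun i => ?_⟩
    simp only [Pi.smul_apply, smul_eq_mul]
    rw [div_mul_eq_mul_div, div_eq_iff hj]
    exact (h i j).symm

section cone

variable {E : Type*} [NormedAddCommGroup E] [NormedSpace ℂ E]
  {X : Type*} [TopologicalSpace X] [ChartedSpace E X] {N : ℕ}

/-- the cone over `F '' K`, without the origin -/
def cone (F : X → ℙ ℂ (Fin (N + 1) → ℂ)) (K : Set X) : Set (Fin (N + 1) → ℂ) :=
  {v | ∃ h : v ≠ 0, ∃ x ∈ K, F x = Projectivization.mk ℂ v h}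

omit [TopologicalSpace X] in
theorem mem_submodule_iff {F : X → ℙ ℂ (Fin (N + 1) → ℂ)} {x : X} {s v : Fin (N + 1) → ℂ}
    (hs : s ≠ 0) (hF : F x = Projectivization.mk ℂ s hs) :
    v ∈ (F x).submodule ↔ ∀ i j, v i * s j = v j * s i := by
  rw [hF, Projectivization.submodule_mk, Submodule.mem_span_singleton, par_iff hs]

omit [TopologicalSpace X] in
theorem mem_submodule_iff_mk {F : X → ℙ ℂ (Fin (N + 1) → ℂ)} {x : X} {v : Fin (N + 1) → ℂ}
    (hv : v ≠ 0) : v ∈ (F x).submodule ↔ F x = Projectivization.mk ℂ v hv := by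
  conv_lhs => rw [← Projectivization.mk_rep (F x), Projectivization.submodule_mk,
    Submodule.mem_span_singleton]
  conv_rhs => rw [← Projectivization.mk_rep (F x), eq_comm, Projectivization.mk_eq_mk_iff']

theorem isClosed_line {F : X → ℙ ℂ (Fin (N + 1) → ℂ)} (hF : IsProjectiveImmersion E F) :
    IsClosed {p : X × (Fin (N + 1) → ℂ) | p.2 ∈ (F p.1).submodule} := by
  rw [← isOpen_compl_iff, isOpen_iff_mem_nhds]
  rintro ⟨x, v⟩ hxv
  obtain ⟨W, s, hWo, hxW, hs, hmk, -⟩ := hF x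
  have h1 : ¬ ∀ i j, v i * s x j = v j * s x i := by
    obtain ⟨h0, h2⟩ := hmk x hxW
    rw [← mem_submodule_iff h0 h2]
    exact hxv
  push Not at h1
  obtain ⟨i, j, hij⟩ := h1
  have hsc : ContinuousAt s x := (hs.contMDiffAt (hWo.mem_nhds hxW)).continuousAt
  have hc : ∀ k, ContinuousAt (fun p : X × (Fin (N + 1) → ℂ) => s p.1 k) (x, v) := fun k =>
    ContinuousAt.comp (g := fun w : Fin (N + 1) → ℂ => w k)
      (f := fun p : X × (Fin (N + 1) → ℂ) => s p.1) (continuous_apply k).continuousAt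
      (ContinuousAt.comp (f := Prod.fst) (x := (x, v)) hsc continuousAt_fst)
  have hv : ∀ k, ContinuousAt (fun p : X × (Fin (N + 1) → ℂ) => p.2 k) (x, v) := fun k =>
    ((continuous_apply k).comp continuous_snd).continuousAt
  have h2 : ContinuousAt (fun p : X × (Fin (N + 1) → ℂ) => p.2 i * s p.1 j - p.2 j * s p.1 i)
      (x, v) := ((hv i).mul (hc j)).sub ((hv j).mul (hc i))
  have h3 := h2.eventually_ne (sub_ne_zero.2 hij)
  have h4 : ∀ᶠ p : X × (Fin (N + 1) → ℂ) in 𝓝 (x, v), p.1 ∈ W :=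
    continuousAt_fst.eventually (hWo.mem_nhds hxW)
  filter_upwards [h3, h4] with p hp hpW
  obtain ⟨h0, h5⟩ := hmk p.1 hpW
  intro h6
  exact hp (sub_eq_zero.2 ((mem_submodule_iff h0 h5).1 h6 i j))

theorem isClosed_cone [CompactSpace X] {F : X → ℙ ℂ (Fin (N + 1) → ℂ)}
    (hF : IsProjectiveImmersion E F) {K : Set X} (hK : IsClosed K) :
    IsClosed (cone F K ∪ {0}) := by
  have h1 : IsClosed ({p : X × (Fin (N + 1) → ℂ) | p.2 ∈ (F p.1).submodule} ∩ K ×ˢ univ) :=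
    (isClosed_line hF).inter (hK.prod isClosed_univ)
  have h2 := isClosedMap_snd_of_compactSpace _ h1
  have h3 : cone F K ∪ {0} =
      (Prod.snd '' ({p : X × (Fin (N + 1) → ℂ) | p.2 ∈ (F p.1).submodule} ∩ K ×ˢ univ)) ∪ {0} := by
    ext v
    constructor
    · rintro (⟨h0, x, hx, h4⟩ | h0)
      · exact Or.inl ⟨(x, v), ⟨(mem_submodule_iff_mk h0).2 h4, hx, trivial⟩, rfl⟩
      · exact Or.inr h0
    · rintro (⟨⟨x, w⟩, ⟨h4, hx, -⟩, rfl⟩ | h0)
      · by_cases h0 : w = 0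
        · exact Or.inr h0
        · exact Or.inl ⟨h0, x, hx, (mem_submodule_iff_mk h0).1 h4⟩
      · exact Or.inr h0
  rw [h3]
  exact h2.union isClosed_singleton

end cone

section atlas

variable {X : Type*} [TopologicalSpace X] [ChartedSpace (Fin 2 → ℂ) X]
  [IsManifold 𝓘(ℂ, Fin 2 → ℂ) ω X] [CompactSpace X] {N : ℕ}

/-- **bridge to helper86** -/
theorem nonempty_projAtlas {F : X → ℙ ℂ (Fin (N + 1) → ℂ)} (hinj : Function.Injective F)
    (hF : IsProjectiveImmersion (Fin 2 → ℂ) F) :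
    Nonempty (H86.ProjAtlas (cone F univ)) := by
  classical
  have hF' := hF
  choose W s hWo hxW hs hmk himm using hF'
  have hOo : ∀ x, IsOpen ((chartAt (Fin 2 → ℂ) x).source ∩ W x) := fun x =>
    (chartAt (Fin 2 → ℂ) x).open_source.inter (hWo x)
  obtain ⟨I, hI⟩ := CompactSpace.elim_nhds_subcover
    (fun x => (chartAt (Fin 2 → ℂ) x).source ∩ W x) fun x =>
      (hOo x).mem_nhds ⟨mem_chart_source _ x, hxW x⟩
  set pt : Fin I.card → X := fun i => (I.equivFin.symm i).1 with hpt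
  have hcov : ∀ y, ∃ i, y ∈ (chartAt (Fin 2 → ℂ) (pt i)).source ∧ y ∈ W (pt i) := by
    intro y
    have h1 : y ∈ ⋃ x ∈ I, (chartAt (Fin 2 → ℂ) x).source ∩ W x := hI ▸ mem_univ y
    simp only [mem_iUnion] at h1
    obtain ⟨x, hx, h2⟩ := h1
    refine ⟨I.equivFin ⟨x, hx⟩, ?_⟩
    simp only [hpt, Equiv.symm_apply_apply]
    exact h2
  set D : Fin I.card → Set (Fin 2 → ℂ) := fun i =>
    (chartAt (Fin 2 → ℂ) (pt i)).target ∩ (chartAt (Fin 2 → ℂ) (pt i)).symm ⁻¹' (W (pt i)) with hD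
  have hDo : ∀ i, IsOpen (D i) := fun i =>
    (chartAt (Fin 2 → ℂ) (pt i)).isOpen_inter_preimage_symm (hWo (pt i))
  have hsd : ∀ x, ∀ y ∈ W x, MDifferentiableAt 𝓘(ℂ, Fin 2 → ℂ) 𝓘(ℂ, Fin (N + 1) → ℂ) (s x) y :=
    fun x y hy => ((hs x).contMDiffAt ((hWo x).mem_nhds hy)).mdifferentiableAt (by simp)
  -- scalar multiples in terms of `F`
  have hmem : ∀ i, ∀ u ∈ D i, ∃ h : s (pt i) ((chartAt (Fin 2 → ℂ) (pt i)).symm u) ≠ 0,
      F ((chartAt (Fin 2 → ℂ) (pt i)).symm u) = Projectivization.mk ℂ _ h := fun i u hu =>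
    hmk (pt i) _ hu.2
  refine ⟨{
    ι := Fin I.card
    cnt := inferInstance
    D := D
    F := fun i u => s (pt i) ((chartAt (Fin 2 → ℂ) (pt i)).symm u)
    zero := fun ⟨h, _⟩ => h rfl
    smul := ?_
    closed := isClosed_cone hF isClosed_univ
    openD := hDo
    diff := ?_
    mem := ?_
    cover := ?_
    inj := ?_
    imm := ?_
    openImg := ?_ }⟩
  · rintro v ⟨h0, x, -, hx⟩ c hc
    refine ⟨smul_ne_zero hc h0, x, trivial, ?_⟩
    rw [hx, Projectivization.mk_eq_mk_iff']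
    exact ⟨c⁻¹, by rw [smul_smul, inv_mul_cancel₀ hc, one_smul]⟩
  · intro i u hu
    have hy : (chartAt (Fin 2 → ℂ) (pt i)).symm u ∈ (chartAt (Fin 2 → ℂ) (pt i)).source :=
      (chartAt (Fin 2 → ℂ) (pt i)).map_target hu.1
    have h1 := (mfderiv_chartV hy (hsd (pt i) _ hu.2) 0).1
    rw [(chartAt (Fin 2 → ℂ) (pt i)).right_inv hu.1] at h1
    exact h1.differentiableWithinAt
  · intro i u hu
    obtain ⟨h0, h1⟩ := hmem i u hu
    exact ⟨h0, _, trivial, h1⟩
  · rintro v ⟨h0, x, -, hx⟩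
    obtain ⟨i, hi, hi'⟩ := hcov x
    refine ⟨i, chartAt (Fin 2 → ℂ) (pt i) x, ⟨(chartAt (Fin 2 → ℂ) (pt i)).map_source hi, ?_⟩, ?_⟩
    · simp only [mem_preimage]
      rw [(chartAt (Fin 2 → ℂ) (pt i)).left_inv hi]
      exact hi'
    · obtain ⟨h2, h3⟩ := hmk (pt i) x hi'
      rw [hx, Projectivization.mk_eq_mk_iff'] at h3
      obtain ⟨a, ha⟩ := h3
      refine ⟨a, ?_, ?_⟩
      · rintro rfl
        rw [zero_smul] at ha
        exact h0 ha.symm
      · rw [(chartAt (Fin 2 → ℂ) (pt i)).left_inv hi]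
        exact ha.symm
  · intro i u hu u' hu' c hc
    obtain ⟨h0, h1⟩ := hmem i u hu
    obtain ⟨h0', h1'⟩ := hmem i u' hu'
    have h2 : F ((chartAt (Fin 2 → ℂ) (pt i)).symm u') = F ((chartAt (Fin 2 → ℂ) (pt i)).symm u) := by
      rw [h1, h1', Projectivization.mk_eq_mk_iff']
      exact ⟨c, hc.symm⟩
    exact (chartAt (Fin 2 → ℂ) (pt i)).symm.injOn hu'.1 hu.1 (hinj h2)
  · intro i u hu
    have hy : (chartAt (Fin 2 → ℂ) (pt i)).symm u ∈ (chartAt (Fin 2 → ℂ) (pt i)).source :=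
      (chartAt (Fin 2 → ℂ) (pt i)).map_target hu.1
    have hm := mdifferentiable_chart (I := 𝓘(ℂ, Fin 2 → ℂ)) (pt i)
    have hr := (chartAt (Fin 2 → ℂ) (pt i)).right_inv hu.1
    have key : ∀ w : Fin 2 → ℂ, ∀ c : ℂ,
        fderiv ℂ (fun u => s (pt i) ((chartAt (Fin 2 → ℂ) (pt i)).symm u)) u w =
          c • s (pt i) ((chartAt (Fin 2 → ℂ) (pt i)).symm u) → w = 0 := by
      intro w c hw
      obtain ⟨v, hv⟩ := hm.mfderiv_surjective hy w
      have h1 := (mfderiv_chartV hy (hsd (pt i) _ hu.2) v).2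
      have h2 : v = 0 := by
        refine himm (pt i) _ hu.2 v c ?_
        refine h1.trans ?_
        rw [hr]
        refine Eq.trans ?_ hw
        exact congrArg (fderiv ℂ (fun u => s (pt i) ((chartAt (Fin 2 → ℂ) (pt i)).symm u)) u) hv
      rw [← hv, h2]
      exact map_zero _
    rw [Fintype.linearIndependent_iff]
    intro g hg
    rw [Fin.sum_univ_three] at hg
    simp only [Matrix.cons_val_zero, Matrix.cons_val_one, Matrix.cons_val_two, Matrix.head_cons,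
      Matrix.tail_cons] at hg
    have h3 := key (g 1 • Pi.single 0 1 + g 2 • Pi.single 1 1) (-g 0) (by
      rw [map_add, map_smul, map_smul, neg_smul]
      rw [eq_neg_iff_add_eq_zero]
      rw [← hg]
      abel)
    have h4 := congrFun h3 0
    have h5 := congrFun h3 1
    simp at h4 h5
    have h6 : g 0 = 0 := by
      rw [h4, h5, zero_smul, zero_smul, add_zero, add_zero] at hg
      rcases smul_eq_zero.1 hg with h | h
      · exact h
      · exact absurd h (hmem i u hu).1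
    intro j
    fin_cases j
    · exact h6
    · exact h4
    · exact h5
  · intro i u hu U hU
    obtain ⟨U', hU'U, hU'o, huU'⟩ := mem_nhds_iff.1 hU
    have hK : IsClosed ((chartAt (Fin 2 → ℂ) (pt i)).symm '' (U' ∩ D i))ᶜ := by
      rw [isClosed_compl_iff]
      exact (chartAt (Fin 2 → ℂ) (pt i)).isOpen_image_symm_of_subset_target
        (hU'o.inter (hDo i)) fun z hz => hz.2.1
    have h1 := isClosed_cone hF hK
    obtain ⟨h0, h2⟩ := hmem i u hu
    have h3 : s (pt i) ((chartAt (Fin 2 → ℂ) (pt i)).symm u) ∈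
        (cone F ((chartAt (Fin 2 → ℂ) (pt i)).symm '' (U' ∩ D i))ᶜ ∪ {0})ᶜ := by
      rintro (⟨h4, x, hx, h5⟩ | h4)
      · rw [← h2] at h5
        exact hx ⟨u, ⟨huU', hu⟩, (hinj h5).symm⟩
      · exact h0 h4
    rw [mem_nhdsWithin]
    refine ⟨_, h1.isOpen_compl, h3, ?_⟩
    rintro v ⟨hv1, h4, x, -, h5⟩
    have h6 : x ∈ (chartAt (Fin 2 → ℂ) (pt i)).symm '' (U' ∩ D i) := by
      by_contra hx
      exact hv1 (Or.inl ⟨h4, x, hx, h5⟩)
    obtain ⟨u', ⟨hu'U, hu'D⟩, rfl⟩ := h6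
    obtain ⟨h7, h8⟩ := hmem i u' hu'D
    rw [h5, Projectivization.mk_eq_mk_iff'] at h8
    obtain ⟨a, ha⟩ := h8
    exact ⟨a, u', ⟨hU'U hu'U, hu'D⟩, ha.symm⟩

/-- **Chow** in helper232's form -/
theorem isProjectiveAlgebraic_range (hchow : H86.ChowProp) {F : X → ℙ ℂ (Fin (N + 1) → ℂ)}
    (hinj : Function.Injective F) (hF : IsProjectiveImmersion (Fin 2 → ℂ) F) :
    IsProjectiveAlgebraic (Set.range F) := by
  obtain ⟨A⟩ := nonempty_projAtlas hinj hF
  refine ⟨H86.vanish (cone F univ), fun P hP => hP.1, fun z hz => ⟨?_, fun h => ?_⟩⟩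
  · rintro ⟨x, hx⟩ P hP
    exact hP.2 z ⟨hz, x, trivial, hx⟩
  · obtain ⟨_, x, _, hx⟩ := (hchow _ A).1 z hz h
    exact ⟨x, hx⟩

/-- **Chow bridge** : an injective holomorphic immersion of a compact complex surface into `ℙᴺ`
gives helper232's `IsSmoothProjective` -/
theorem isSmoothProjective_of_immersion (hchow : H86.ChowProp)
    {F : X → ℙ ℂ (Fin (N + 1) → ℂ)} (hinj : Function.Injective F)
    (hF : IsProjectiveImmersion (Fin 2 → ℂ) F) : IsSmoothProjective (Fin 2 → ℂ) X :=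
  ⟨N, F, hinj, hF, isProjectiveAlgebraic_range hchow hinj hF⟩

/-- **the bridge** : good finite set of sections and Chow give `IsSmoothProjective` -/
theorem isSmoothProjective (hchow : H86.ChowProp) [Nonempty X] {H : Type*}
    {S : SecSys (Fin 2 → ℂ) X H} {T : Finset H} (h : S.Good T) :
    IsSmoothProjective (Fin 2 → ℂ) X := by
  obtain ⟨N, -, F, h1, h2, -⟩ := h.exists_map
  exact isSmoothProjective_of_immersion hchow h1 h2

/-- the bridge from a section system separating points and tangent vectors -/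
theorem isSmoothProjective_of_secSys (hchow : H86.ChowProp) [Nonempty X] {H : Type*}
    (S : SecSys (Fin 2 → ℂ) X H) (hb : ∀ x, ∃ s, S.τ x s x ≠ 0)
    (hs : ∀ x y, x ≠ y → ∃ s, S.τ x s x = 0 ∧ S.τ y s y ≠ 0)
    (ht : ∀ (x : X) (v : TangentSpace 𝓘(ℂ, Fin 2 → ℂ) x), v ≠ 0 →
      ∃ s, S.τ x s x = 0 ∧ (mfderiv 𝓘(ℂ, Fin 2 → ℂ) 𝓘(ℂ) (S.τ x s) x v : ℂ) ≠ 0) :
    IsSmoothProjective (Fin 2 → ℂ) X := by
  obtain ⟨T, hT⟩ := S.exists_good hb hs ht
  exact isSmoothProjective hchow hT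

/-- the same, separation only in the fibres of a holomorphic map to `(ℙ¹)^ι` -/
theorem isSmoothProjective_of_secSys_rel (hchow : H86.ChowProp) [Nonempty X] {H ι : Type*}
    [Fintype ι] (S : SecSys (Fin 2 → ℂ) X H) (hb : ∀ x, ∃ s, S.τ x s x ≠ 0)
    {c : ι → X → OnePoint ℂ} (hc : ∀ i, IsHolP1 (Fin 2 → ℂ) (c i))
    (hs : ∀ x y, x ≠ y → (∀ i, c i x = c i y) → ∃ s, S.τ x s x = 0 ∧ S.τ y s y ≠ 0)
    (ht : ∀ (x : X) (v : TangentSpace 𝓘(ℂ, Fin 2 → ℂ) x), v ≠ 0 →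
      ∃ s, S.τ x s x = 0 ∧ (mfderiv 𝓘(ℂ, Fin 2 → ℂ) 𝓘(ℂ) (S.τ x s) x v : ℂ) ≠ 0) :
    IsSmoothProjective (Fin 2 → ℂ) X := by
  obtain ⟨T, hT⟩ := S.exists_good_rel hb hc hs ht
  exact isSmoothProjective hchow hT

end atlas

end Vale.Agent.P300.Emb
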