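import Vale.Agent.P300.H86.Proj

/-!
# P300 [CHOW] AffPart: the affine part `Z = {v ∈ C | l₀ v = 1}` : charts, injectivity, open images,
growth (helper933)
-/

set_option autoImplicit false

open Complex Filter Set
open scoped Topology ContDiff

namespace Vale.Agent.P300.H933A

open Vale.Agent.P300.H86

variable {n : ℕ} {C : Set (Fin n → ℂ)} (A : ProjAtlas C) (M : Fin 4 → Fin n → ℂ)

/-- the affine part -/
def Zz (C : Set (Fin n → ℂ)) (M : Fin 4 → Fin n → ℂ) : Set (Fin n → ℂ) := {v | v ∈ C ∧ lf M 0 v = 1}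

/-- the domain -/
def Dd (i : A.ι) : Set W := {u | u ∈ A.D i ∧ lf M 0 (A.F i u) ≠ 0}

/-- the chart -/
noncomputable def ff (i : A.ι) (u : W) : Fin n → ℂ := (lf M 0 (A.F i u))⁻¹ • A.F i u

include A in
theorem closed_Zz : IsClosed (Zz C M) := by
  have h1 : Zz C M = (C ∪ {0}) ∩ {v | lf M 0 v = 1} := by
    ext v
    constructor
    · rintro ⟨h1, h2⟩
      exact ⟨Or.inl h1, h2⟩
    · rintro ⟨h1 | h1, h2⟩
      · exact ⟨h1, h2⟩
      · rw [mem_singleton_iff] at h1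
        simp [h1] at h2
  rw [h1]
  exact A.closed.inter (isClosed_eq (lf M 0).continuous continuous_const)

theorem diffF (i : A.ι) : DifferentiableOn ℂ (fun u => lf M 0 (A.F i u)) (A.D i) :=
  (lf M 0).differentiable.comp_differentiableOn (A.diff i)

theorem open_Dd (i : A.ι) : IsOpen (Dd A M i) := by
  have h1 := (diffF A M i).continuousOn.isOpen_inter_preimage (A.openD i)
    (isClosed_singleton (x := (0 : ℂ))).isOpen_compl
  exact h1

theorem diff_ff (i : A.ι) : DifferentiableOn ℂ (ff A M i) (Dd A M i) := by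
  have h1 : DifferentiableOn ℂ (fun u => lf M 0 (A.F i u)) (Dd A M i) :=
    (diffF A M i).mono fun u hu => hu.1
  exact (h1.inv fun u hu => hu.2).smul ((A.diff i).mono fun u hu => hu.1)

theorem lf_ff (i : A.ι) {u : W} (hu : u ∈ Dd A M i) : lf M 0 (ff A M i u) = 1 := by
  rw [ff, map_smul, smul_eq_mul, inv_mul_cancel₀ hu.2]

theorem mem_ff (i : A.ι) {u : W} (hu : u ∈ Dd A M i) : ff A M i u ∈ Zz C M :=
  ⟨A.smul _ (A.mem i u hu.1) _ (inv_ne_zero hu.2), lf_ff A M i hu⟩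

theorem inj_ff (i : A.ι) : InjOn (ff A M i) (Dd A M i) := by
  intro u hu u' hu' h
  refine A.inj i u' hu'.1 u hu.1 (lf M 0 (A.F i u) * (lf M 0 (A.F i u'))⁻¹) ?_
  have h1 : lf M 0 (A.F i u) • ff A M i u = A.F i u := by
    rw [ff, smul_smul, mul_inv_cancel₀ hu.2, one_smul]
  calc A.F i u = lf M 0 (A.F i u) • ff A M i u := h1.symm
    _ = lf M 0 (A.F i u) • ff A M i u' := by rw [h]
    _ = _ := by rw [ff, smul_smul]

theorem eq_ff (i : A.ι) {u : W} (hu : u ∈ A.D i) {v : Fin n → ℂ} {s : ℂ} (hv : v = s • A.F i u)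
    (h1 : lf M 0 v = 1) : u ∈ Dd A M i ∧ ff A M i u = v := by
  have h2 : s * lf M 0 (A.F i u) = 1 := by
    rw [hv, map_smul, smul_eq_mul] at h1
    exact h1
  have h3 : lf M 0 (A.F i u) ≠ 0 := right_ne_zero_of_mul (h2 ▸ one_ne_zero)
  refine ⟨⟨hu, h3⟩, ?_⟩
  rw [ff, hv]
  congr 1
  exact (eq_inv_of_mul_eq_one_left h2).symm

theorem cover_ff {v : Fin n → ℂ} (hv : v ∈ Zz C M) : ∃ i, ∃ u ∈ Dd A M i, ff A M i u = v := by
  obtain ⟨i, u, hu, s, hs, h1⟩ := A.cover v hv.1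
  exact ⟨i, u, eq_ff A M i hu h1 hv.2⟩

theorem openImg_ff (i : A.ι) (u : W) (hu : u ∈ Dd A M i) (U : Set W) (hU : U ∈ 𝓝 u) :
    ff A M i '' (U ∩ Dd A M i) ∈ 𝓝[Zz C M] (ff A M i u) := by
  set c := lf M 0 (A.F i u) with hc
  have h1 := A.openImg i u hu.1 U hU
  have h2 : c • ff A M i u = A.F i u := by
    rw [ff, smul_smul, ← hc, mul_inv_cancel₀ hu.2, one_smul]
  have h3 : Tendsto (fun v : Fin n → ℂ => c • v) (𝓝[Zz C M] (ff A M i u))
      (𝓝[C] (A.F i u)) := by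
    refine tendsto_nhdsWithin_iff.2 ⟨?_, ?_⟩
    · rw [← h2]
      exact ((continuous_const_smul c).tendsto _).mono_left nhdsWithin_le_nhds
    · filter_upwards [self_mem_nhdsWithin] with v hv
      exact A.smul v hv.1 c hu.2
  filter_upwards [h3 h1, self_mem_nhdsWithin] with v hv hvZ
  obtain ⟨s, u', ⟨hu'U, hu'D⟩, h4⟩ := hv
  have h5 : v = (c⁻¹ * s) • A.F i u' := by
    rw [mul_smul]
    have h6 : c • v = s • A.F i u' := h4
    rw [← h6, smul_smul, inv_mul_cancel₀ hu.2, one_smul]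
  obtain ⟨h6, h7⟩ := eq_ff A M i hu'D h5 hvZ.2
  exact ⟨u', ⟨hu'U, h6⟩, h7⟩

end Vale.Agent.P300.H933A
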