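import Vale.Agent.P300.H933.Loc

/-!
# P300 / PROJ / EMB : separation by sections and compactness give an embedding (helper933)

* `SecSys E X H` : a family `H` of holomorphic sections of a line bundle on `X`, given by local
  trivialisations `τ x` on open neighbourhoods `U x`.
* `SecSys.exists_embedding` : if the sections have no base point, separate the points and the tangent
  vectors, then finitely many of them give an injective immersion `X → ℙ^N`.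
-/

set_option autoImplicit false

open scoped Manifold ContDiff Topology
open Set Filter

namespace Vale.Agent.P300.Emb

/-- holomorphic sections of a line bundle on `X`, in local trivialisations -/
structure SecSys (E : Type*) [NormedAddCommGroup E] [NormedSpace ℂ E] (X : Type*)
    [TopologicalSpace X] [ChartedSpace E X] (H : Type*) where
  /-- domain of the trivialisation at `x` -/
  U : X → Set X
  isOpen : ∀ x, IsOpen (U x)
  mem : ∀ x, x ∈ U x
  /-- the section `s` in the trivialisation at `x` -/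
  τ : X → H → X → ℂ
  hol : ∀ x s, ContMDiffOn 𝓘(ℂ, E) 𝓘(ℂ) ω (τ x s) (U x)
  comp : ∀ x x' y, y ∈ U x → y ∈ U x' → ∃ c : ℂ, c ≠ 0 ∧ ∀ s, τ x s y = c * τ x' s y

section fin

variable {E : Type*} [NormedAddCommGroup E] [NormedSpace ℂ E] [FiniteDimensional ℂ E]

/-- finitely many functionals suffice -/
theorem finite_sep {S : Type*} (D : S → E →L[ℂ] ℂ) (h : ∀ v, (∀ s, D s v = 0) → v = 0) :
    ∃ T : Finset S, ∀ v, (∀ s ∈ T, D s v = 0) → v = 0 := by
  classical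
  set R : Set (Module.Dual ℂ E) := Set.range fun s => (D s : E →ₗ[ℂ] ℂ) with hR
  have hfg : (Submodule.span ℂ R).FG := IsNoetherian.noetherian _
  obtain ⟨T', hT'R, hT'⟩ := (Submodule.fg_span_iff_fg_span_finset_subset R).1 hfg
  have hc : ∀ φ : {φ // φ ∈ T'}, ∃ s, (D s : E →ₗ[ℂ] ℂ) = φ.1 := fun φ => hT'R φ.2
  choose g hg using hc
  refine ⟨Finset.univ.image g, fun v hv => h v fun s => ?_⟩
  have h1 : (D s : E →ₗ[ℂ] ℂ) ∈ Submodule.span ℂ (T' : Set (Module.Dual ℂ E)) := by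
    rw [← hT']
    exact Submodule.subset_span ⟨s, rfl⟩
  have h2 : ∀ φ ∈ Submodule.span ℂ (T' : Set (Module.Dual ℂ E)), φ v = 0 := by
    intro φ hφ
    refine Submodule.span_induction (p := fun φ _ => φ v = 0) ?_ ?_ ?_ ?_ hφ
    · intro φ hφ
      have h3 := hv (g ⟨φ, hφ⟩) (Finset.mem_image_of_mem _ (Finset.mem_univ _))
      exact (LinearMap.congr_fun (hg ⟨φ, hφ⟩) v).symm.trans h3
    · rfl
    · intro a b _ _ ha hb
      rw [LinearMap.add_apply, ha, hb, add_zero]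
    · intro c a _ ha
      rw [LinearMap.smul_apply, ha, smul_zero]
  exact h2 _ h1

end fin

section mfd

variable {E : Type*} [NormedAddCommGroup E] [NormedSpace ℂ E]
  {X : Type*} [TopologicalSpace X] [ChartedSpace E X] [IsManifold 𝓘(ℂ, E) ω X]

/-- chain rule in the chart at `x` -/
theorem mfderiv_chart {f : X → ℂ} {x y : X} (hy : y ∈ (chartAt E x).source)
    (hf : MDifferentiableAt 𝓘(ℂ, E) 𝓘(ℂ) f y) (v : TangentSpace 𝓘(ℂ, E) y) :
    DifferentiableAt ℂ (fun z => f ((chartAt E x).symm z)) (chartAt E x y) ∧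
    (mfderiv 𝓘(ℂ, E) 𝓘(ℂ) f y v : ℂ) =
      fderiv ℂ (fun z => f ((chartAt E x).symm z)) (chartAt E x y)
        (mfderiv 𝓘(ℂ, E) 𝓘(ℂ, E) (chartAt E x) y v : E) := by
  set e := chartAt E x with he
  have hm := mdifferentiable_chart (I := 𝓘(ℂ, E)) x
  have h1 : MDifferentiableAt 𝓘(ℂ, E) 𝓘(ℂ, E) e y := hm.mdifferentiableAt hy
  have h2 : MDifferentiableAt 𝓘(ℂ, E) 𝓘(ℂ, E) e.symm (e y) :=
    hm.mdifferentiableAt_symm (e.map_source hy)
  have hey : e.symm (e y) = y := e.left_inv hy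
  have h3 : MDifferentiableAt 𝓘(ℂ, E) 𝓘(ℂ) (fun z => f (e.symm z)) (e y) := by
    refine MDifferentiableAt.comp (e y) (g := f) ?_ h2
    rw [hey]
    exact hf
  refine ⟨h3.differentiableAt, ?_⟩
  have h4 : (fun z => f (e.symm z)) ∘ e =ᶠ[𝓝 y] f := by
    filter_upwards [e.open_source.mem_nhds hy] with y' hy'
    exact congrArg f (e.left_inv hy')
  have h5 : mfderiv 𝓘(ℂ, E) 𝓘(ℂ) f y = mfderiv 𝓘(ℂ, E) 𝓘(ℂ) ((fun z => f (e.symm z)) ∘ e) y :=
    (Filter.EventuallyEq.mfderiv_eq h4).symm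
  have h6 : mfderiv 𝓘(ℂ, E) 𝓘(ℂ) ((fun z => f (e.symm z)) ∘ e) y =
      (mfderiv 𝓘(ℂ, E) 𝓘(ℂ) (fun z => f (e.symm z)) (e y)).comp
        (mfderiv 𝓘(ℂ, E) 𝓘(ℂ, E) e y) := mfderiv_comp y h3 h1
  rw [h5, h6, mfderiv_eq_fderiv]
  rfl

omit [IsManifold 𝓘(ℂ, E) ω X] in
/-- the components of the derivative of a vector valued function -/
theorem mfderiv_pi_apply {ι : Type*} [Fintype ι] {f : X → ι → ℂ} {y : X}
    (hf : MDifferentiableAt 𝓘(ℂ, E) 𝓘(ℂ, ι → ℂ) f y) (v : TangentSpace 𝓘(ℂ, E) y) (i : ι) :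
    (mfderiv 𝓘(ℂ, E) 𝓘(ℂ) (fun y => f y i) y v : ℂ) =
      (mfderiv 𝓘(ℂ, E) 𝓘(ℂ, ι → ℂ) f y v : ι → ℂ) i := by
  have h1 : MDifferentiableAt 𝓘(ℂ, ι → ℂ) 𝓘(ℂ)
      (ContinuousLinearMap.proj (R := ℂ) (φ := fun _ : ι => ℂ) i) (f y) :=
    (ContinuousLinearMap.differentiableAt _).mdifferentiableAt
  have h2 : mfderiv 𝓘(ℂ, E) 𝓘(ℂ) (fun y => f y i) y =
      (mfderiv 𝓘(ℂ, ι → ℂ) 𝓘(ℂ)
        (ContinuousLinearMap.proj (R := ℂ) (φ := fun _ : ι => ℂ) i) (f y)).comp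
        (mfderiv 𝓘(ℂ, E) 𝓘(ℂ, ι → ℂ) f y) := mfderiv_comp y h1 hf
  rw [h2, mfderiv_eq_fderiv, ContinuousLinearMap.fderiv]
  rfl

omit [IsManifold 𝓘(ℂ, E) ω X] in
/-- holomorphic functions in the chart -/
theorem contDiffAt_chart {f : X → ℂ} {x : X} (hf : ContMDiffAt 𝓘(ℂ, E) 𝓘(ℂ) ω f x) :
    ContDiffAt ℂ 1 (fun z => f ((chartAt E x).symm z)) (chartAt E x x) := by
  have h1 := (contMDiffAt_iff.1 hf).2
  simp only [mfld_simps] at h1
  exact (contDiffWithinAt_univ.1 h1).of_le (by exact_mod_cast le_top)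

end mfd

variable {E : Type*} [NormedAddCommGroup E] [NormedSpace ℂ E] [FiniteDimensional ℂ E]
  {X : Type*} [TopologicalSpace X] [ChartedSpace E X] [IsManifold 𝓘(ℂ, E) ω X] {H : Type*}

omit [FiniteDimensional ℂ E] in
/-- derivative of a quotient -/
theorem fderiv_quot {f g : E → ℂ} {z : E} (hf : DifferentiableAt ℂ f z)
    (hg : DifferentiableAt ℂ g z) (h0 : g z ≠ 0) (w : E) :
    fderiv ℂ (fun z => f z / g z) z w =
      (fderiv ℂ f z w * g z - f z * fderiv ℂ g z w) / g z ^ 2 := by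
  have h1 : DifferentiableAt ℂ (fun z => f z / g z) z := by
    simpa only [div_eq_mul_inv] using hf.fun_mul (hg.fun_inv h0)
  have h2 : f =ᶠ[𝓝 z] fun z => (f z / g z) * g z := by
    filter_upwards [hg.continuousAt.eventually_ne h0] with z' hz'
    rw [div_mul_cancel₀ _ hz']
  have h3 : fderiv ℂ f z = fderiv ℂ (fun z => (f z / g z) * g z) z := h2.fderiv_eq
  have h4 := congrArg (fun L : E →L[ℂ] ℂ => L w) h3
  have h5 : fderiv ℂ (fun z => (f z / g z) * g z) z w =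
      (f z / g z) * fderiv ℂ g z w + g z * fderiv ℂ (fun z => f z / g z) z w := by
    have h6 : fderiv ℂ (fun z => (f z / g z) * g z) z =
        (f z / g z) • fderiv ℂ g z + g z • fderiv ℂ (fun z => f z / g z) z :=
      (h1.hasFDerivAt.mul hg.hasFDerivAt).fderiv
    rw [h6]
    simp
  rw [h5] at h4
  rw [h4]
  field_simp
  ring

/-- **the local embedding lemma** : near `x` finitely many sections separate points and tangent
vectors -/
theorem local_emb {U : Set X} (hU : IsOpen U) {x : X} (hx : x ∈ U) (τ : H → X → ℂ)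
    (hol : ∀ s, ContMDiffOn 𝓘(ℂ, E) 𝓘(ℂ) ω (τ s) U) (hb : ∃ s, τ s x ≠ 0)
    (ht : ∀ v : TangentSpace 𝓘(ℂ, E) x,
      (∀ s, τ s x = 0 → (mfderiv 𝓘(ℂ, E) 𝓘(ℂ) (τ s) x v : ℂ) = 0) → v = 0) :
    ∃ (T : Finset H) (W : Set X), IsOpen W ∧ x ∈ W ∧ W ⊆ U ∧
      (∀ y ∈ W, ∃ s ∈ T, τ s y ≠ 0) ∧
      (∀ y ∈ W, ∀ y' ∈ W, ∀ c : ℂ, (∀ s ∈ T, τ s y' = c * τ s y) → y = y') ∧
      (∀ y ∈ W, ∀ (v : TangentSpace 𝓘(ℂ, E) y) (c : ℂ),
        (∀ s ∈ T, (mfderiv 𝓘(ℂ, E) 𝓘(ℂ) (τ s) y v : ℂ) = c * τ s y) → v = 0) := by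
  classical
  obtain ⟨s₀, hs₀⟩ := hb
  set e := chartAt E x with he
  have hxe : x ∈ e.source := mem_chart_source E x
  have hsmooth : ∀ s, ∀ y ∈ U, ContMDiffAt 𝓘(ℂ, E) 𝓘(ℂ) ω (τ s) y := fun s y hy =>
    (hol s).contMDiffAt (hU.mem_nhds hy)
  have hmd : ∀ s, ∀ y ∈ U, MDifferentiableAt 𝓘(ℂ, E) 𝓘(ℂ) (τ s) y := fun s y hy =>
    (hsmooth s y hy).mdifferentiableAt (by simp)
  -- the sections vanishing at `x`
  let S := {s : H // τ s x = 0}
  obtain ⟨T₀, hT₀⟩ := finite_sep (E := E) (S := S)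
    (fun s => fderiv ℂ (fun z => τ s.1 (e.symm z)) (e x)) (by
      intro v hv
      have hm := mdifferentiable_chart (I := 𝓘(ℂ, E)) x
      obtain ⟨v', hv'⟩ := hm.mfderiv_surjective hxe v
      have h1 := ht v' (fun s hs => by
        rw [(mfderiv_chart hxe (hmd s x hx) v').2]
        have := hv ⟨s, hs⟩
        rw [← hv'] at this
        exact this)
      rw [← hv', h1]
      exact map_zero _)
  -- the map `G`
  set G : E → ({s // s ∈ T₀} → ℂ) := fun z s => τ s.1.1 (e.symm z) / τ s₀ (e.symm z) with hG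
  have hexs : e.symm (e x) = x := e.left_inv hxe
  have hG1 : ContDiffAt ℂ 1 G (e x) := by
    rw [contDiffAt_pi]
    intro s
    refine (contDiffAt_chart (hsmooth s.1.1 x hx)).div (contDiffAt_chart (hsmooth s₀ x hx)) ?_
    rw [hexs]
    exact hs₀
  -- derivative of the components
  have hquot : ∀ y ∈ U, y ∈ e.source → τ s₀ y ≠ 0 → ∀ (s : {s // s ∈ T₀}) (w : E),
      fderiv ℂ (fun z => G z s) (e y) w =
        (fderiv ℂ (fun z => τ s.1.1 (e.symm z)) (e y) w * τ s₀ y -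
          τ s.1.1 y * fderiv ℂ (fun z => τ s₀ (e.symm z)) (e y) w) / τ s₀ y ^ 2 := by
    intro y hyU hye hy0 s w
    have hey : e.symm (e y) = y := e.left_inv hye
    have hd1 : DifferentiableAt ℂ (fun z => τ s.1.1 (e.symm z)) (e y) :=
      (mfderiv_chart hye (hmd s.1.1 y hyU) 0).1
    have hd2 : DifferentiableAt ℂ (fun z => τ s₀ (e.symm z)) (e y) :=
      (mfderiv_chart hye (hmd s₀ y hyU) 0).1
    have h0 : τ s₀ (e.symm (e y)) ≠ 0 := by rwa [hey]
    have h4 : (fun z => G z s) = fun z => τ s.1.1 (e.symm z) / τ s₀ (e.symm z) := rfl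
    rw [h4]
    rw [fderiv_quot hd1 hd2 h0 w, hey]
  have hcomp : ∀ z, DifferentiableAt ℂ G z → ∀ (s : {s // s ∈ T₀}) (w : E),
      fderiv ℂ G z w s = fderiv ℂ (fun z => G z s) z w := by
    intro z hz s w
    have := hasFDerivAt_pi'.1 hz.hasFDerivAt s
    rw [this.fderiv]
    rfl
  have hG2 : ∀ v : E, fderiv ℂ G (e x) v = 0 → v = 0 := by
    intro v hv
    refine hT₀ v fun s hs => ?_
    have h1 : fderiv ℂ (fun z => G z ⟨s, hs⟩) (e x) v = 0 := by
      rw [← hcomp _ (hG1.differentiableAt (by norm_num)) ⟨s, hs⟩ v, hv]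
      rfl
    rw [hquot x hx hxe hs₀, s.2, zero_mul, sub_zero] at h1
    rcases div_eq_zero_iff.1 h1 with h2 | h2
    · rcases mul_eq_zero.1 h2 with h3 | h3
      · exact h3
      · exact absurd h3 hs₀
    · exact absurd h2 (pow_ne_zero 2 hs₀)
  obtain ⟨W₀, hW₀, hinj, hder⟩ := inj_nhds hG1 hG2
  -- the neighbourhood
  have hcont : ContinuousAt (τ s₀) x := (hsmooth s₀ x hx).continuousAt
  have hWn : U ∩ e.source ∩ (e ⁻¹' W₀) ∩ {y | τ s₀ y ≠ 0} ∈ 𝓝 x := by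
    refine inter_mem (inter_mem (inter_mem (hU.mem_nhds hx) (e.open_source.mem_nhds hxe)) ?_) ?_
    · exact (e.continuousAt hxe) hW₀
    · exact hcont.eventually_ne hs₀
  obtain ⟨W, hWs, hWo, hxW⟩ := mem_nhds_iff.1 hWn
  refine ⟨insert s₀ (T₀.image Subtype.val), W, hWo, hxW, fun y hy => (hWs hy).1.1.1, ?_, ?_, ?_⟩
  · exact fun y hy => ⟨s₀, Finset.mem_insert_self _ _, (hWs hy).2⟩
  · intro y hy y' hy' c hc
    obtain ⟨⟨⟨hyU, hye⟩, hyW⟩, hy0⟩ := hWs hy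
    obtain ⟨⟨⟨hyU', hye'⟩, hyW'⟩, hy0'⟩ := hWs hy'
    have hc0 : c ≠ 0 := by
      intro h
      have := hc s₀ (Finset.mem_insert_self _ _)
      rw [h, zero_mul] at this
      exact hy0' this
    refine e.injOn hye hye' (hinj hyW hyW' ?_)
    funext s
    have h1 := hc s.1.1 (Finset.mem_insert_of_mem (Finset.mem_image_of_mem _ s.2))
    have h2 := hc s₀ (Finset.mem_insert_self _ _)
    simp only [hG, e.left_inv hye, e.left_inv hye']
    rw [h1, h2, mul_div_mul_left _ _ hc0]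
  · intro y hy v c hc
    obtain ⟨⟨⟨hyU, hye⟩, hyW⟩, hy0⟩ := hWs hy
    have hm := mdifferentiable_chart (I := 𝓘(ℂ, E)) x
    have h1 : ∀ s ∈ insert s₀ (T₀.image Subtype.val),
        fderiv ℂ (fun z => τ s (e.symm z)) (e y)
          (mfderiv 𝓘(ℂ, E) 𝓘(ℂ, E) e y v : E) = c * τ s y := by
      intro s hs
      rw [← hc s hs, (mfderiv_chart hye (hmd s y hyU) v).2]
    have h2 : ∀ w : E, (∀ s ∈ insert s₀ (T₀.image Subtype.val),
        fderiv ℂ (fun z => τ s (e.symm z)) (e y) w = c * τ s y) → fderiv ℂ G (e y) w = 0 := by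
      intro w hw
      funext s
      rw [hcomp _ (hder _ hyW).1, hquot y hyU hye hy0,
        hw s₀ (Finset.mem_insert_self _ _),
        hw s.1.1 (Finset.mem_insert_of_mem (Finset.mem_image_of_mem _ s.2))]
      simp only [Pi.zero_apply]
      rw [div_eq_zero_iff]
      left
      ring
    have h3 := (hder _ hyW).2 _ (h2 _ h1)
    refine hm.mfderiv_injective hye ?_
    rw [map_zero]
    exact h3

namespace SecSys

variable (S : SecSys E X H)

/-- the finite set `T` of sections gives an injective immersion -/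
structure Good (T : Finset H) : Prop where
  sep : ∀ x y, ∀ c : ℂ, (∀ s ∈ T, S.τ y s y = c * S.τ x s x) → x = y
  imm : ∀ z, ∃ (x : X) (W : Set X), IsOpen W ∧ z ∈ W ∧ W ⊆ S.U x ∧
    (∀ y ∈ W, ∃ s ∈ T, S.τ x s y ≠ 0) ∧
    (∀ y ∈ W, ∀ (v : TangentSpace 𝓘(ℂ, E) y) (c : ℂ),
        (∀ s ∈ T, (mfderiv 𝓘(ℂ, E) 𝓘(ℂ) (S.τ x s) y v : ℂ) = c * S.τ x s y) → v = 0)

omit [FiniteDimensional ℂ E] [IsManifold 𝓘(ℂ, E) ω X] in
theorem Good.mono {T T' : Finset H} (h : S.Good T) (hT : T ⊆ T') : S.Good T' where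
  sep x y c hc := h.sep x y c fun s hs => hc s (hT hs)
  imm z := by
    obtain ⟨x, W, h1, h2, h3, h4, h5⟩ := h.imm z
    refine ⟨x, W, h1, h2, h3, fun y hy => ?_, fun y hy v c hc => h5 y hy v c fun s hs => hc s (hT hs)⟩
    obtain ⟨s, hs, h6⟩ := h4 y hy
    exact ⟨s, hT hs, h6⟩

/-- **finitely many sections suffice** -/
theorem exists_good [CompactSpace X] (hb : ∀ x, ∃ s, S.τ x s x ≠ 0)
    (hs : ∀ x y, x ≠ y → ∃ s, S.τ x s x = 0 ∧ S.τ y s y ≠ 0)
    (ht : ∀ (x : X) (v : TangentSpace 𝓘(ℂ, E) x), v ≠ 0 →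
      ∃ s, S.τ x s x = 0 ∧ (mfderiv 𝓘(ℂ, E) 𝓘(ℂ) (S.τ x s) x v : ℂ) ≠ 0) :
    ∃ T : Finset H, S.Good T := by
  classical
  -- the local lemma
  have hloc := fun x => local_emb (S.isOpen x) (S.mem x) (S.τ x) (S.hol x) (hb x) (by
    intro v hv
    by_contra hne
    obtain ⟨s, h1, h2⟩ := ht x v hne
    exact h2 (hv s h1))
  choose T₁ W₁ hWo hxW hWU hW1 hW2 hW3 using hloc
  -- pairs
  have hpair : ∀ p : X × X, ∃ (N : Set (X × X)) (T : Finset H), N ∈ 𝓝 p ∧ ∀ q ∈ N, ∀ c : ℂ,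
      (∀ s ∈ T, S.τ q.2 s q.2 = c * S.τ q.1 s q.1) → q.1 = q.2 := by
    rintro ⟨x, y⟩
    by_cases hxy : x = y
    · subst hxy
      refine ⟨W₁ x ×ˢ W₁ x, T₁ x, prod_mem_nhds ((hWo x).mem_nhds (hxW x))
        ((hWo x).mem_nhds (hxW x)), ?_⟩
      rintro ⟨x', y'⟩ ⟨hx', hy'⟩ c hc
      obtain ⟨a, ha, ha'⟩ := S.comp x y' y' (hWU x hy') (S.mem y')
      obtain ⟨b, hb, hb'⟩ := S.comp x' x x' (S.mem x') (hWU x hx')
      refine hW2 x x' hx' y' hy' (a * (c * b)) fun s hs => ?_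
      rw [ha' s, hc s hs, hb' s]
      ring
    · obtain ⟨s, hs1, hs2⟩ := hs x y hxy
      obtain ⟨t, ht1⟩ := hb x
      have hcx : ∀ s, ContinuousAt (S.τ x s) x := fun s =>
        ((S.hol x s).contMDiffAt ((S.isOpen x).mem_nhds (S.mem x))).continuousAt
      have hcy : ∀ s, ContinuousAt (S.τ y s) y := fun s =>
        ((S.hol y s).contMDiffAt ((S.isOpen y).mem_nhds (S.mem y))).continuousAt
      have hD : ContinuousAt (fun q : X × X => S.τ x t q.1 * S.τ y s q.2 -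
          S.τ x s q.1 * S.τ y t q.2) (x, y) := by
        have h1 : ∀ s, ContinuousAt (fun q : X × X => S.τ x s q.1) (x, y) := fun s =>
          ContinuousAt.comp (f := Prod.fst) (x := (x, y)) (hcx s) continuousAt_fst
        have h2 : ∀ s, ContinuousAt (fun q : X × X => S.τ y s q.2) (x, y) := fun s =>
          ContinuousAt.comp (f := Prod.snd) (x := (x, y)) (hcy s) continuousAt_snd
        exact ((h1 t).mul (h2 s)).sub ((h1 s).mul (h2 t))
      have hD0 : S.τ x t x * S.τ y s y - S.τ x s x * S.τ y t y ≠ 0 := by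
        rw [hs1, zero_mul, sub_zero]
        exact mul_ne_zero ht1 hs2
      refine ⟨{q | S.τ x t q.1 * S.τ y s q.2 - S.τ x s q.1 * S.τ y t q.2 ≠ 0} ∩
        (S.U x ×ˢ S.U y), {s, t}, inter_mem (hD.eventually_ne hD0)
        (prod_mem_nhds ((S.isOpen x).mem_nhds (S.mem x)) ((S.isOpen y).mem_nhds (S.mem y))), ?_⟩
      rintro ⟨x', y'⟩ ⟨hne, hx', hy'⟩ c hc
      exfalso
      obtain ⟨a, ha, ha'⟩ := S.comp x x' x' hx' (S.mem x')
      obtain ⟨b, hb, hb'⟩ := S.comp y y' y' hy' (S.mem y')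
      have h1 := hc s (by simp)
      have h2 := hc t (by simp)
      simp only at h1 h2
      refine hne ?_
      simp only
      rw [ha' t, ha' s, hb' s, hb' t, h1, h2]
      ring
  choose N T₂ hN hT₂ using hpair
  obtain ⟨P, hP⟩ := CompactSpace.elim_nhds_subcover N hN
  obtain ⟨Q, hQ⟩ := CompactSpace.elim_nhds_subcover W₁ fun x => (hWo x).mem_nhds (hxW x)
  refine ⟨P.biUnion T₂ ∪ Q.biUnion T₁, ?_, ?_⟩
  · intro x y c hc
    have h1 : (x, y) ∈ ⋃ p ∈ P, N p := hP ▸ mem_univ _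
    simp only [mem_iUnion] at h1
    obtain ⟨p, hp, h2⟩ := h1
    exact hT₂ p (x, y) h2 c fun s hs =>
      hc s (Finset.mem_union_left _ (Finset.mem_biUnion.2 ⟨p, hp, hs⟩))
  · intro z
    have h1 : z ∈ ⋃ p ∈ Q, W₁ p := hQ ▸ mem_univ _
    simp only [mem_iUnion] at h1
    obtain ⟨x, hx, h2⟩ := h1
    have h3 : T₁ x ⊆ P.biUnion T₂ ∪ Q.biUnion T₁ := fun s hs =>
      Finset.mem_union_right _ (Finset.mem_biUnion.2 ⟨x, hx, hs⟩)
    refine ⟨x, W₁ x, hWo x, h2, hWU x, fun y hy => ?_, fun y hy v c hc =>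
      hW3 x y hy v c fun s hs => hc s (h3 hs)⟩
    obtain ⟨s, hs, h4⟩ := hW1 x y hy
    exact ⟨s, h3 hs, h4⟩

end SecSys

/-- `F : X → ℙ^N` is a holomorphic immersion, expressed by local holomorphic lifts `f` -/
def IsHolImmersion (E : Type*) [NormedAddCommGroup E] [NormedSpace ℂ E] {X : Type*}
    [TopologicalSpace X] [ChartedSpace E X] {N : ℕ}
    (F : X → Projectivization ℂ (Fin (N + 1) → ℂ)) : Prop :=
  ∀ x, ∃ (W : Set X) (f : X → Fin (N + 1) → ℂ), IsOpen W ∧ x ∈ W ∧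
    ContMDiffOn 𝓘(ℂ, E) 𝓘(ℂ, Fin (N + 1) → ℂ) ω f W ∧
    (∀ y ∈ W, ∃ h : f y ≠ 0, F y = Projectivization.mk ℂ (f y) h) ∧
    ∀ y ∈ W, ∀ (v : TangentSpace 𝓘(ℂ, E) y) (c : ℂ),
      (mfderiv 𝓘(ℂ, E) 𝓘(ℂ, Fin (N + 1) → ℂ) f y v : Fin (N + 1) → ℂ) = c • f y → v = 0

namespace SecSys

variable (S : SecSys E X H)

omit [FiniteDimensional ℂ E] [IsManifold 𝓘(ℂ, E) ω X] in
theorem Good.exists_map [Nonempty X] {T : Finset H} (h : S.Good T) :
    ∃ (N : ℕ) (σ : Fin (N + 1) ≃ T) (F : X → Projectivization ℂ (Fin (N + 1) → ℂ)),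
      Function.Injective F ∧ IsHolImmersion E F ∧
      ∀ x, ∃ h0 : (fun i => S.τ x (σ i).1 x) ≠ 0,
        F x = Projectivization.mk ℂ (fun i => S.τ x (σ i).1 x) h0 := by
  classical
  obtain ⟨x₀⟩ := ‹Nonempty X›
  have hTne : T.card ≠ 0 := by
    obtain ⟨x, W, h1, h2, h3, h4, h5⟩ := h.imm x₀
    obtain ⟨s, hs, -⟩ := h4 x₀ h2
    exact (Finset.card_pos.2 ⟨s, hs⟩).ne'
  obtain ⟨N, hN⟩ := Nat.exists_eq_succ_of_ne_zero hTne
  have σ : Fin (N + 1) ≃ T := (T.equivFinOfCardEq hN).symm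
  have hne : ∀ x, (fun i => S.τ x (σ i).1 x) ≠ 0 := by
    intro x h0
    obtain ⟨x', W, h1, h2, h3, h4, h5⟩ := h.imm x
    obtain ⟨s, hs, h6⟩ := h4 x h2
    obtain ⟨c, hc, h7⟩ := S.comp x' x x (h3 h2) (S.mem x)
    refine h6 ?_
    rw [h7 s]
    have := congrFun h0 (σ.symm ⟨s, hs⟩)
    simp only [Equiv.apply_symm_apply, Pi.zero_apply] at this
    rw [this, mul_zero]
  refine ⟨N, σ, fun x => Projectivization.mk ℂ _ (hne x), ?_, ?_, fun x => ⟨hne x, rfl⟩⟩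
  · intro x y hxy
    obtain ⟨a, ha⟩ := (Projectivization.mk_eq_mk_iff ℂ _ _ (hne x) (hne y)).1 hxy
    refine (h.sep y x a fun s hs => ?_).symm
    have := congrFun ha (σ.symm ⟨s, hs⟩)
    simp only [Equiv.apply_symm_apply, Pi.smul_apply] at this
    rw [← this]
    rfl
  · intro z
    obtain ⟨x, W, h1, h2, h3, h4, h5⟩ := h.imm z
    have hhol : ∀ i, ContMDiffOn 𝓘(ℂ, E) 𝓘(ℂ) ω (S.τ x (σ i).1) W := fun i =>
      (S.hol x _).mono h3
    refine ⟨W, fun y i => S.τ x (σ i).1 y, h1, h2, ?_, ?_, ?_⟩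
    · rw [contMDiffOn_pi_space]
      exact hhol
    · intro y hy
      obtain ⟨c, hc, h7⟩ := S.comp x y y (h3 hy) (S.mem y)
      have h8 : (fun i => S.τ x (σ i).1 y) ≠ 0 := by
        intro h0
        obtain ⟨s, hs, h6⟩ := h4 y hy
        refine h6 ?_
        have := congrFun h0 (σ.symm ⟨s, hs⟩)
        simpa only [Equiv.apply_symm_apply, Pi.zero_apply] using this
      refine ⟨h8, ?_⟩
      symm
      rw [Projectivization.mk_eq_mk_iff']
      refine ⟨c, ?_⟩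
      funext i
      simp only [Pi.smul_apply, smul_eq_mul]
      exact (h7 _).symm
    · intro y hy v c hc
      refine h5 y hy v c fun s hs => ?_
      have h9 : MDifferentiableAt 𝓘(ℂ, E) 𝓘(ℂ, Fin (N + 1) → ℂ)
          (fun y i => S.τ x (σ i).1 y) y :=
        ((contMDiffOn_pi_space.2 hhol).contMDiffAt (h1.mem_nhds hy)).mdifferentiableAt (by simp)
      obtain ⟨i, hi⟩ := σ.surjective ⟨s, hs⟩
      have h10 := mfderiv_pi_apply h9 v i
      have h11 := congrFun hc i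
      have h12 : (σ i).1 = s := by rw [hi]
      subst h12
      exact h10.trans h11

end SecSys

end Vale.Agent.P300.Emb
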