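import Mathlib

/-!
# P300 / PROJ / EMB : the local lemma (helper933)
-/

set_option autoImplicit false

open scoped Manifold ContDiff Topology
open Set Filter

namespace Vale.Agent.P300.Emb

variable {E : Type*} [NormedAddCommGroup E] [NormedSpace ℂ E] [FiniteDimensional ℂ E]

/-- a map with injective derivative is locally injective, with injective derivatives nearby -/
theorem inj_nhds {ι : Type*} [Fintype ι] {G : E → (ι → ℂ)} {z₀ : E}
    (h : ContDiffAt ℂ 1 G z₀) (hd : ∀ v : E, fderiv ℂ G z₀ v = 0 → v = 0) :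
    ∃ W ∈ 𝓝 z₀, Set.InjOn G W ∧ ∀ z ∈ W, DifferentiableAt ℂ G z ∧
      ∀ v, fderiv ℂ G z v = 0 → v = 0 := by
  have : CompleteSpace E := FiniteDimensional.complete ℂ E
  set G' : E →L[ℂ] (ι → ℂ) := fderiv ℂ G z₀ with hG'
  have hinj : LinearMap.ker (G' : E →ₗ[ℂ] (ι → ℂ)) = ⊥ := by
    rw [LinearMap.ker_eq_bot']
    exact hd
  obtain ⟨A₀, hA₀⟩ := LinearMap.exists_leftInverse_of_injective (G' : E →ₗ[ℂ] (ι → ℂ)) hinj
  set A : (ι → ℂ) →L[ℂ] E := LinearMap.toContinuousLinearMap A₀ with hA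
  have hAG : A.comp G' = ContinuousLinearMap.id ℂ E := by
    ext v
    exact LinearMap.congr_fun hA₀ v
  have h1 : ContDiffAt ℂ 1 (fun z => A (G z)) z₀ := A.contDiff.contDiffAt.comp z₀ h
  have hG1 : HasStrictFDerivAt G G' z₀ := h.hasStrictFDerivAt (by norm_num)
  have h2 : HasStrictFDerivAt (fun z => A (G z)) (A.comp G') z₀ :=
    A.hasStrictFDerivAt.comp z₀ hG1
  rw [hAG] at h2
  have h3 : HasStrictFDerivAt (fun z => A (G z))
      ((ContinuousLinearEquiv.refl ℂ E : E ≃L[ℂ] E) : E →L[ℂ] E) z₀ := h2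
  set K := h3.toOpenPartialHomeomorph with hK
  have hs : K.source ∈ 𝓝 z₀ := K.open_source.mem_nhds h3.mem_toOpenPartialHomeomorph_source
  have hKe : (K : E → E) = fun z => A (G z) := h3.toOpenPartialHomeomorph_coe
  have hder : ContinuousAt (fderiv ℂ (fun z => A (G z))) z₀ :=
    (h1.fderiv_right (m := 0) (by norm_num)).continuousAt
  have h4 : ∀ᶠ z in 𝓝 z₀, fderiv ℂ (fun z => A (G z)) z ∈
      Set.range ((↑) : (E ≃L[ℂ] E) → (E →L[ℂ] E)) := by
    refine hder ?_
    rw [h3.hasFDerivAt.fderiv]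
    exact ContinuousLinearEquiv.nhds _
  have h5 : ∀ᶠ z in 𝓝 z₀, DifferentiableAt ℂ G z := by
    filter_upwards [h.eventually (by norm_num)] with z hz
    exact hz.differentiableAt (by norm_num)
  refine ⟨K.source ∩ {z | fderiv ℂ (fun z => A (G z)) z ∈
      Set.range ((↑) : (E ≃L[ℂ] E) → (E →L[ℂ] E)) ∧ DifferentiableAt ℂ G z},
      Filter.inter_mem hs (h4.and h5), ?_, ?_⟩
  · intro z hz z' hz' e
    refine K.injOn hz.1 hz'.1 ?_
    rw [hKe]
    exact congrArg A e
  · intro z hz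
    refine ⟨hz.2.2, fun v hv => ?_⟩
    obtain ⟨e, he⟩ := hz.2.1
    have h6 : fderiv ℂ (fun z => A (G z)) z v = 0 := by
      have : fderiv ℂ (fun z => A (G z)) z = A.comp (fderiv ℂ G z) :=
        (A.hasFDerivAt.comp z hz.2.2.hasFDerivAt).fderiv
      rw [this, ContinuousLinearMap.comp_apply, hv, map_zero]
    rw [← he] at h6
    exact (map_eq_zero_iff e e.injective).1 h6

end Vale.Agent.P300.Emb
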